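import Vale.Agent.P272.K.Asm.Final

/-!
# P272: compact Kähler manifolds with a Hermitian metric of negative holomorphic sectional curvature

`X` is a compact complex manifold of dimension `n ≥ 1` with a Kähler metric `w` and a Hermitian
metric `h` (no Kähler, pluriclosed or other condition) whose Chern connection has negative
holomorphic sectional curvature. If `K_X + a[w]` is nef, `a ≥ 0`, then `(c₁(K_X) + a[w])^n > 0`.
In particular, if `K_X` is nef then `c₁(K_X)^n > 0`: `K_X` is nef and big.

The proof contains the theorem of Aubin and Yau (solution of the complex Monge-Ampère equation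
`(χ + i∂∂̄u)^n = e^{u + F} χ^n` on compact Kähler manifolds) and the integral inequality
`k ∫ (tr_g h)² dv_g ≤ 2 ∫ tr_g h dv_g` for every Kähler metric `g` with `Ric(g) ≥ -g`.
-/

open scoped Manifold ContDiff

namespace Vale.Agent.Results.P272.HermitianNegHSC

open Vale.Agent.P272.K

theorem result (n : ℕ) (hn : 1 ≤ n) (X : Type) [TopologicalSpace X] [T2Space X] [CompactSpace X]
    [Nonempty X] [ChartedSpace (Cm n) X] [IsManifold 𝓘(ℂ, Cm n) ω X]
    (w h : Chart n X → Cm n → Matrix (Fin n) (Fin n) ℂ) (hw : IsKahler w) (hh : IsHermitian h)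
    (hneg : NegHSC h) (a : ℝ) (ha : 0 ≤ a) (hnef : NefCanonical w a) (φ : Chart n X → Cm n → ℝ)
    (hφ : IsCanonicalMetric φ) :
    ∃ I : ℝ, 0 < I ∧ IsIntegral (fun e z => (cHess (φ e) z + (a : ℂ) • w e z).det.re) I :=
  main n hn X w h hw hh hneg a ha hnef φ hφ

end Vale.Agent.Results.P272.HermitianNegHSC
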