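import Vale.Agent.P272.K.AMP.FinalA

/-!
# P272: ampleness of the canonical bundle for Hermitian metrics of negative holomorphic sectional
curvature

`X` is a compact connected complex manifold of dimension `n ≥ 1` with a Kähler metric `w`, and `h`
is a Hermitian metric on `X` (no Kähler, pluriclosed or other condition) whose Chern connection has
negative holomorphic sectional curvature. Then `K_X` has a smooth Hermitian metric of positive
curvature, so `K_X` is ample. Nothing is assumed about `K_X` (no nefness) or `X` (no projectivity).

Ideas: let `t₀` be the infimum of the `t` for which `K_X + t[w]` is a Kähler class and suppose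
`t₀ ≥ 0`. For `t > t₀` there is a Kähler metric `g` in this class with `Ric(g) = -g + t w`
(Aubin-Yau, proved here). Its volume is bounded below (integrated Chern-Lu inequality). The uniform
estimate `tr_g w ≤ C` contradicts the choice of `t₀`. To prove it, take a function `G` with a
regularised pole (`G - Δ G = 1 + f₀`, `f₀` a bump) at the maximum point of `tr_g w`;
`B = G^{-1/(n-1)}` satisfies `|∂B|² ≤ C B` and `∫ B^{-n} |i∂∂̄B - (|∂B|²/B) g|² ≤ C`; the double
divergence inequality for `h` with the weight `B^{-(n-2)}` and the closedness of `w` give
`∫ B^{-(n-2)} (tr_g w)² ≤ C`; the Chern-Lu inequality for `w` and an estimate of `∫ G^{n/(n-1)}`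
over `G ≤ L` of the size `(log L)^{n/(n-1)}` (from Aubin-Yau and the uniform exponential
integrability of quasi-plurisubharmonic functions) finish the proof if `n ≥ 3`. The cases `n ≤ 2`
follow by applying this to `X × X × X`.
-/

open scoped Manifold ContDiff ComplexOrder

namespace Vale.Agent.Results.P272.HermitianNegHSCAmple

open Vale.Agent.P272.K

theorem result (n : ℕ) (hn : 1 ≤ n) (X : Type) [TopologicalSpace X] [T2Space X] [CompactSpace X]
    [ConnectedSpace X] [ChartedSpace (Cm n) X] [IsManifold 𝓘(ℂ, Cm n) ω X]
    (w h : Chart n X → Cm n → Matrix (Fin n) (Fin n) ℂ) (hw : IsKahler w) (hh : IsHermitian h)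
    (hneg : NegHSC h) :
    ∃ φ : Chart n X → Cm n → ℝ, IsCanonicalMetric φ ∧
      ∀ e x, At e x → (cHess (φ e) (e x)).PosDef :=
  AMP.Main.ampleNeg n hn X w h hw hh hneg

end Vale.Agent.Results.P272.HermitianNegHSCAmple
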