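import Vale.Agent.P272.K.QN.H705.Final
import Vale.Agent.P272.K.AMP.NEF.Main

/-!
# P272: Hermitian metrics of nonpositive and quasi-negative holomorphic sectional curvature

`X` is a compact connected complex manifold of dimension `n ≥ 1` with a Kähler metric `w`, and `h` is
a Hermitian metric on `X` (no Kähler, pluriclosed or other condition) whose Chern connection has
nonpositive holomorphic sectional curvature. Then `K_X` is nef. If the curvature is quasi-negative,
then moreover `c₁(K_X)^n > 0`, so `K_X` is nef and big. Nothing is assumed about `K_X`, and `X` is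
not assumed projective.

Ideas. Nefness: if `t₀ > 0` is the infimum of the `t` such that `K_X + t[w]` is a Kähler class, the
Kähler metrics `g` with `Ric(g) = -g + t w`, `t > t₀`, satisfy `tr_g w ≤ C`: the term `t w` replaces
the negativity of the curvature of `h`. Positivity of the volume: if the volumes of these metrics
`g` (now `t → 0`) tend to `0`, then the integrated Chern-Lu inequality gives, after a normalisation,
a limit of `(tr_g h, g-average of h)`: a nonzero parallel-like semipositive form, positive where
`κ > 0`; unique continuation over the connected `X` and the identity for the fourth moments give a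
contradiction.
-/

open scoped Manifold ContDiff

namespace Vale.Agent.Results.P272.HermitianQuasiNegNefBig

open Vale.Agent.P272.K

theorem result (n : ℕ) (hn : 1 ≤ n) (X : Type) [TopologicalSpace X] [T2Space X] [CompactSpace X]
    [ConnectedSpace X] [ChartedSpace (Cm n) X] [IsManifold 𝓘(ℂ, Cm n) ω X]
    (w h : Chart n X → Cm n → Matrix (Fin n) (Fin n) ℂ) (hw : IsKahler w) (hh : IsHermitian h) :
    (NonposHSC h → NefCanonical w 0) ∧
    (QuasiNegHSC h → NefCanonical w 0 ∧ ∀ φ : Chart n X → Cm n → ℝ, IsCanonicalMetric φ →
      ∃ I : ℝ, 0 < I ∧ IsIntegral (fun e z => (cHess (φ e) z).det.re) I) := by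
  refine ⟨fun h0 => AMP.NEF.nef_of_nonpos hn hw hh h0, fun hq => ?_⟩
  have hnef : NefCanonical w 0 := AMP.NEF.nef_of_nonpos hn hw hh hq.1
  refine ⟨hnef, fun φ hφ => ?_⟩
  have h1 := QN.big_of_quasiNeg hn hw hh hq le_rfl hnef hφ
  simpa using h1

end Vale.Agent.Results.P272.HermitianQuasiNegNefBig
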