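import Vale.Agent.P272.K.T4.Final

/-!
# P272: hyperbolic Kähler manifolds with a Hermitian metric of nonpositive holomorphic sectional
curvature

`X` is a compact complex manifold of dimension `n ≥ 1` with a Kähler metric `w`, `X` is Brody
hyperbolic, and `h` is a Hermitian metric on `X` (no Kähler, pluriclosed or other condition) whose
Chern connection has nonpositive holomorphic sectional curvature. If `K_X + a[w]` is nef, `a ≥ 0`,
then `(c₁(K_X) + a[w])^n > 0`. In particular, if `K_X` is nef then `c₁(K_X)^n > 0`.

The proof contains the theorem of Aubin and Yau. Ideas: for Kähler metrics `g` with `Ric(g) ≥ -g`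
the geodesic spray of `g` preserves the measure `χ(g(w,w)) dw dv_g` on the tangent bundle; if
`∫ (tr_g h)² dv_g` were not bounded by `C ∫ tr_g h dv_g`, these measures would concentrate on a
compact set of unit vectors of `h`, invariant under the complex spray of `h`, on which
`R^h(w, w̄)w = 0`; there the real and imaginary flows commute and give a nonconstant entire curve.
-/

open scoped Manifold ContDiff

namespace Vale.Agent.Results.P272.HyperbolicNonposHSC

open Vale.Agent.P272.K

theorem result (n : ℕ) (hn : 1 ≤ n) (X : Type) [TopologicalSpace X] [T2Space X] [CompactSpace X]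
    [Nonempty X] [ChartedSpace (Cm n) X] [IsManifold 𝓘(ℂ, Cm n) ω X] (hyp : BrodyHyperbolic n X)
    (w h : Chart n X → Cm n → Matrix (Fin n) (Fin n) ℂ) (hw : IsKahler w) (hh : IsHermitian h)
    (hneg : NonposHSC h) (a : ℝ) (ha : 0 ≤ a) (hnef : NefCanonical w a) (φ : Chart n X → Cm n → ℝ)
    (hφ : IsCanonicalMetric φ) :
    ∃ I : ℝ, 0 < I ∧ IsIntegral (fun e z => (cHess (φ e) z + (a : ℂ) • w e z).det.re) I :=
  T4.hyp n hn X hyp w h hw hh hneg a ha hnef φ hφ

end Vale.Agent.Results.P272.HyperbolicNonposHSC
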