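import Vale.Agent.P272.K.Asm.Phase1Final

/-!
# P272: Hermitian metrics of negative holomorphic sectional curvature, via twisted metrics

`X` is a compact complex manifold of dimension `n` with a Kähler metric `w` and a Hermitian metric
`h` (no Kähler or pluriclosed condition) whose Chern connection has negative holomorphic sectional
curvature. If every class `c₁(K_X) + (a + ε)[w]`, `ε > 0`, contains a Kähler metric `g` with
`Ric(g) ≥ -g` (Aubin-Yau gives these when `K_X + a[w]` is nef, `a ≥ 0`), then the top
self-intersection number `(c₁(K_X) + a[w])^n` is positive.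
-/

open scoped Manifold ContDiff

namespace Vale.Agent.Results.P272.NegHSCTwisted

open Vale.Agent.P272.K

theorem result (n : ℕ) (X : Type) [TopologicalSpace X] [T2Space X] [CompactSpace X] [Nonempty X]
    [ChartedSpace (Cm n) X] [IsManifold 𝓘(ℂ, Cm n) ω X]
    (w h : Chart n X → Cm n → Matrix (Fin n) (Fin n) ℂ) (hw : IsKahler w) (hh : IsHermitian h)
    (hneg : NegHSC h) (a : ℝ) (hke : TwistedKE w a) (φ : Chart n X → Cm n → ℝ)
    (hφ : IsCanonicalMetric φ) :
    ∃ I : ℝ, 0 < I ∧ IsIntegral (fun e z => (cHess (φ e) z + (a : ℂ) • w e z).det.re) I :=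
  twisted n X w h hw hh hneg a hke φ hφ

end Vale.Agent.Results.P272.NegHSCTwisted
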